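import Vale.Agent.P325.H111.K2.Stmts

/-!
# The low degree part is controlled by the energy (package K2-F1b)

`lowThm : BonamiThm → LowThm`.
-/

namespace Vale.Agent.P325.K2.H715Low

open Finset Vale.Agent.P325.K2

set_option linter.unusedSectionVars false

variable {ι : Type} [Fintype ι] [DecidableEq ι]

/-! ### Elementary Fourier analysis -/

theorem sg_sq (b : Bool) : sg b * sg b = 1 := by cases b <;> simp [sg]

theorem sg_not (b : Bool) : sg (!b) = - sg b := by cases b <;> simp [sg]

theorem chi_sq (S : Finset ι) (x : ι → Bool) : chi S x * chi S x = 1 := by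
  unfold chi
  rw [← prod_mul_distrib]
  exact prod_eq_one fun i _ => sg_sq _

theorem flp_flp (x : ι → Bool) (i : ι) : flp (flp x i) i = x := by
  funext j
  unfold flp
  by_cases h : j = i
  · subst h; simp
  · simp [Function.update_of_ne h]

theorem chi_flp (S : Finset ι) (x : ι → Bool) (i : ι) :
    chi S (flp x i) = (if i ∈ S then -1 else 1) * chi S x := by
  unfold chi
  split_ifs with h
  · rw [← mul_prod_erase S _ h, ← mul_prod_erase S (fun j => sg (x j)) h]
    have h1 : flp x i i = !x i := by simp [flp]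
    have h2 : ∏ j ∈ S.erase i, sg (flp x i j) = ∏ j ∈ S.erase i, sg (x j) :=
      prod_congr rfl fun j hj => by rw [flp, Function.update_of_ne (ne_of_mem_erase hj)]
    rw [h1, h2, sg_not]
    ring
  · rw [one_mul]
    exact prod_congr rfl fun j hj => by
      rw [flp, Function.update_of_ne]
      rintro rfl
      exact h hj

/-- The change of a bit is a bijection. -/
def flpEquiv (i : ι) : (ι → Bool) ≃ (ι → Bool) where
  toFun x := flp x i
  invFun x := flp x i
  left_inv x := flp_flp x i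
  right_inv x := flp_flp x i

theorem Ex_flp (i : ι) (f : (ι → Bool) → ℝ) : (Ex fun x => f (flp x i)) = Ex f :=
  Ex_equiv (flpEquiv i) f

theorem Ex_chi_mul (S U : Finset ι) :
    (Ex fun x => chi S x * chi U x) = if S = U then 1 else 0 := by
  split_ifs with h
  · subst h
    simp only [chi_sq]
    exact Ex_const 1
  · have h1 : ∃ i, ¬ (i ∈ S ↔ i ∈ U) := by
      by_contra h2
      push Not at h2
      exact h (Finset.ext h2)
    obtain ⟨i, hi⟩ := h1
    have h3 : (Ex fun x => chi S x * chi U x) = - Ex fun x => chi S x * chi U x := by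
      conv_lhs => rw [← Ex_flp i]
      rw [← Ex_neg]
      refine Ex_congr fun x => ?_
      rw [chi_flp, chi_flp]
      by_cases hS : i ∈ S
      · have hU : i ∉ U := fun hU => hi ⟨fun _ => hU, fun _ => hS⟩
        rw [if_pos hS, if_neg hU]; ring
      · have hU : i ∈ U := by
          by_contra hU
          exact hi ⟨fun h => absurd h hS, fun h => absurd h hU⟩
        rw [if_neg hS, if_pos hU]; ring
    linarith

/-- The noise operator. -/
noncomputable def T (ρ : ℝ) (f : (ι → Bool) → ℝ) (x : ι → Bool) : ℝ :=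
  ∑ S : Finset ι, ρ ^ #S * fc f S * chi S x

/-- The kernel of the noise operator. -/
noncomputable def ker (ρ : ℝ) (x y : ι → Bool) : ℝ := ∏ i, (1 + ρ * (sg (x i) * sg (y i)))

theorem ker_eq (ρ : ℝ) (x y : ι → Bool) :
    ker ρ x y = ∑ S : Finset ι, ρ ^ #S * chi S x * chi S y := by
  unfold ker
  rw [Finset.prod_one_add, powerset_univ]
  refine sum_congr rfl fun S _ => ?_
  unfold chi
  rw [prod_mul_distrib, prod_mul_distrib, prod_const, mul_assoc]

theorem ker_symm (ρ : ℝ) (x y : ι → Bool) : ker ρ x y = ker ρ y x := by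
  unfold ker
  exact prod_congr rfl fun i _ => by rw [mul_comm (sg (x i))]

theorem ker_nonneg {ρ : ℝ} (h0 : 0 ≤ ρ) (h1 : ρ ≤ 1) (x y : ι → Bool) : 0 ≤ ker ρ x y := by
  refine prod_nonneg fun i _ => ?_
  cases x i <;> cases y i <;> simp [sg] <;> linarith

theorem T_eq_ker (ρ : ℝ) (f : (ι → Bool) → ℝ) (x : ι → Bool) :
    T ρ f x = Ex fun y => ker ρ x y * f y := by
  simp only [ker_eq, sum_mul]
  rw [Ex_sum]
  unfold T
  refine sum_congr rfl fun S _ => ?_
  unfold fc
  have h : (Ex fun y => ρ ^ #S * chi S x * chi S y * f y) =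
      Ex fun y => (ρ ^ #S * chi S x) * (f y * chi S y) := Ex_congr fun y => by ring
  rw [h, Ex_const_mul]
  ring

theorem ker_one (x y : ι → Bool) :
    ker 1 x y = if x = y then (Fintype.card (ι → Bool) : ℝ) else 0 := by
  unfold ker
  split_ifs with h
  · subst h
    simp only [sg_sq, Fintype.card_fun, Fintype.card_bool]
    rw [prod_const, card_univ]
    push_cast
    norm_num
  · obtain ⟨i, hi⟩ : ∃ i, x i ≠ y i := by
      by_contra h1
      push Not at h1
      exact h (funext h1)
    refine prod_eq_zero (mem_univ i) ?_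
    revert hi
    cases x i <;> cases y i <;> simp [sg]

theorem inversion (f : (ι → Bool) → ℝ) (x : ι → Bool) :
    f x = ∑ S : Finset ι, fc f S * chi S x := by
  have h := T_eq_ker 1 f x
  unfold T at h
  simp only [one_pow, one_mul] at h
  rw [h]
  simp only [ker_one, ite_mul, zero_mul]
  unfold Ex
  rw [sum_ite_eq univ x, if_pos (mem_univ _)]
  have h0 : (Fintype.card (ι → Bool) : ℝ) ≠ 0 := by exact_mod_cast Fintype.card_ne_zero
  field_simp

theorem parseval (f g : (ι → Bool) → ℝ) :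
    (Ex fun x => f x * g x) = ∑ S : Finset ι, fc f S * fc g S := by
  have h : (Ex fun x => f x * g x) = Ex fun x => ∑ S : Finset ι, fc g S * (f x * chi S x) := by
    refine Ex_congr fun x => ?_
    conv_lhs => rw [inversion g x]
    rw [mul_sum]
    exact sum_congr rfl fun S _ => by ring
  rw [h, Ex_sum]
  refine sum_congr rfl fun S _ => ?_
  rw [Ex_const_mul]
  unfold fc
  ring

theorem fc_T (ρ : ℝ) (f : (ι → Bool) → ℝ) (S : Finset ι) : fc (T ρ f) S = ρ ^ #S * fc f S := by
  have h : fc (T ρ f) S = Ex fun x => ∑ U : Finset ι, (ρ ^ #U * fc f U) * (chi U x * chi S x) := by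
    unfold fc T
    refine Ex_congr fun x => ?_
    rw [sum_mul]
    exact sum_congr rfl fun U _ => by unfold fc; ring
  rw [h, Ex_sum]
  simp only [Ex_const_mul, Ex_chi_mul]
  simp

theorem Ex_ker (ρ : ℝ) (x : ι → Bool) : (Ex fun y => ker ρ x y) = 1 := by
  have h1 : T ρ (fun _ => (1 : ℝ)) x = 1 := by
    unfold T
    have h2 : ∀ S : Finset ι, fc (fun _ : ι → Bool => (1 : ℝ)) S = if S = ∅ then 1 else 0 := by
      intro S
      have h3 := Ex_chi_mul ∅ S
      unfold fc
      have h4 : ∀ x : ι → Bool, (1 : ℝ) * chi S x = chi ∅ x * chi S x := fun x => by simp [chi]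
      rw [Ex_congr h4, h3]
      by_cases h5 : S = ∅
      · rw [if_pos h5, if_pos h5.symm]
      · rw [if_neg h5, if_neg fun h => h5 h.symm]
    simp only [h2]
    rw [sum_eq_single ∅]
    · simp [chi]
    · intro S _ hS; simp [hS]
    · intro h; exact absurd (mem_univ _) h
  rw [T_eq_ker] at h1
  simpa using h1

/-! ### Cauchy–Schwarz -/

theorem Ex_cs {α : Type} [Fintype α] (f g : α → ℝ) :
    (Ex fun x => f x * g x) ^ 2 ≤ (Ex fun x => f x ^ 2) * Ex fun x => g x ^ 2 := by
  unfold Ex
  rw [div_pow, div_mul_div_comm, ← sq]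
  exact div_le_div_of_nonneg_right (sum_mul_sq_le_sq_mul_sq _ _ _) (sq_nonneg _)

/-- The length of a vector. -/
noncomputable def len {J : Type} [Fintype J] (v : J → ℝ) : ℝ := Real.sqrt (∑ j, v j ^ 2)

theorem len_nonneg {J : Type} [Fintype J] (v : J → ℝ) : 0 ≤ len v := Real.sqrt_nonneg _

theorem len_sq {J : Type} [Fintype J] (v : J → ℝ) : len v ^ 2 = ∑ j, v j ^ 2 :=
  Real.sq_sqrt (sum_nonneg fun _ _ => sq_nonneg _)

theorem inner_le {J : Type} [Fintype J] (v w : J → ℝ) : ∑ j, v j * w j ≤ len v * len w := by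
  have h := sum_mul_sq_le_sq_mul_sq univ v w
  rw [← len_sq, ← len_sq, ← mul_pow] at h
  exact (le_abs_self _).trans (abs_le_of_sq_le_sq h (mul_nonneg (len_nonneg _) (len_nonneg _)))

/-- Jensen's inequality for the length of a vector and the noise operator. -/
theorem Ex_len_T {J : Type} [Fintype J] {ρ : ℝ} (h0 : 0 ≤ ρ) (h1 : ρ ≤ 1)
    (F : J → (ι → Bool) → ℝ) :
    (Ex fun x => len fun j => T ρ (F j) x) ≤ Ex fun x => len fun j => F j x := by
  have hpt : ∀ x, (len fun j => T ρ (F j) x) ≤ Ex fun y => ker ρ x y * len fun j => F j y := by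
    intro x
    have hE : 0 ≤ Ex fun y => ker ρ x y * len fun j => F j y :=
      Ex_nonneg fun y => mul_nonneg (ker_nonneg h0 h1 x y) (len_nonneg _)
    have h2 : (len fun j => T ρ (F j) x) ^ 2 ≤
        (len fun j => T ρ (F j) x) * Ex fun y => ker ρ x y * len fun j => F j y := by
      rw [len_sq]
      have h3 : ∑ j, T ρ (F j) x ^ 2 =
          Ex fun y => ker ρ x y * ∑ j, F j y * T ρ (F j) x := by
        have h4 : ∀ j, T ρ (F j) x ^ 2 = Ex fun y => ker ρ x y * (F j y * T ρ (F j) x) := by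
          intro j
          have h5 : (Ex fun y => ker ρ x y * (F j y * T ρ (F j) x)) =
              Ex fun y => (ker ρ x y * F j y) * T ρ (F j) x := Ex_congr fun y => by ring
          rw [h5, Ex_mul_const, ← T_eq_ker, sq]
        simp only [h4]
        rw [← Ex_sum]
        exact Ex_congr fun y => by rw [mul_sum]
      rw [h3, ← Ex_const_mul]
      refine Ex_mono fun y => ?_
      have h6 := inner_le (fun j => F j y) (fun j => T ρ (F j) x)
      calc ker ρ x y * ∑ j, F j y * T ρ (F j) x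
          ≤ ker ρ x y * ((len fun j => F j y) * len fun j => T ρ (F j) x) :=
            mul_le_mul_of_nonneg_left h6 (ker_nonneg h0 h1 x y)
        _ = _ := by ring
    rcases (len_nonneg fun j => T ρ (F j) x).eq_or_lt with h | h
    · rw [← h]; exact hE
    · rw [sq] at h2
      exact le_of_mul_le_mul_left h2 h
  calc (Ex fun x => len fun j => T ρ (F j) x)
      ≤ Ex fun x => Ex fun y => ker ρ x y * len fun j => F j y := Ex_mono hpt
    _ = Ex fun y => Ex fun x => ker ρ x y * len fun j => F j y := Ex_comm _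
    _ = Ex fun y => len fun j => F j y := by
        refine Ex_congr fun y => ?_
        rw [Ex_mul_const]
        have : (Ex fun x => ker ρ x y) = 1 := by
          rw [← Ex_ker ρ y]
          exact Ex_congr fun x => ker_symm ρ x y
        rw [this, one_mul]

/-- The inequality between the norms of orders one and two. -/
theorem norm_T {J : Type} [Fintype J] (hB : BonamiThm) (F : J → (ι → Bool) → ℝ) :
    (Ex fun x => ∑ j, T (1 / Real.sqrt 3) (F j) x ^ 2) ≤
      (Ex fun x => len fun j => F j x) * Real.sqrt (Ex fun x => ∑ j, F j x ^ 2) := by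
  set ρ : ℝ := 1 / Real.sqrt 3 with hρ
  set G : J → (ι → Bool) → ℝ := fun j => T ρ (F j) with hG
  set Q : ℝ := Ex fun x => ∑ j, G j x ^ 2 with hQ
  set a : (ι → Bool) → ℝ := fun x => len fun j => F j x with ha
  set b : (ι → Bool) → ℝ := fun x => len fun j => T ρ (G j) x with hb
  have ha0 : ∀ x, 0 ≤ a x := fun x => len_nonneg _
  have hb0 : ∀ x, 0 ≤ b x := fun x => len_nonneg _
  have hQ0 : 0 ≤ Q := Ex_nonneg fun x => sum_nonneg fun _ _ => sq_nonneg _
  -- duality
  have h1 : Q ≤ Ex fun x => a x * b x := by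
    have h2 : Q = Ex fun x => ∑ j, F j x * T ρ (G j) x := by
      rw [hQ, Ex_sum, Ex_sum]
      refine sum_congr rfl fun j _ => ?_
      have h3 : (Ex fun x => G j x ^ 2) = Ex fun x => G j x * G j x :=
        Ex_congr fun x => sq _
      rw [h3, parseval, parseval]
      refine sum_congr rfl fun S _ => ?_
      have h31 : fc (G j) S = ρ ^ #S * fc (F j) S := fc_T ρ (F j) S
      rw [fc_T ρ (G j), h31]
      ring
    rw [h2]
    exact Ex_mono fun x => inner_le _ _
  -- Bonami
  have h4 : (Ex fun x => (b x ^ 2) ^ 2) ≤ Q ^ 2 := by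
    have h5 := hB ι J G
    refine le_trans (le_of_eq ?_) h5
    refine Ex_congr fun x => ?_
    rw [hb]
    simp only
    rw [len_sq]
    rfl
  have h6 : (Ex fun x => a x * b x ^ 2) ^ 2 ≤ (Ex fun x => a x ^ 2) * Q ^ 2 :=
    (Ex_cs a fun x => b x ^ 2).trans
      (mul_le_mul_of_nonneg_left h4 (Ex_nonneg fun x => sq_nonneg _))
  have h7 : (Ex fun x => a x * b x) ^ 2 ≤ (Ex a) * Ex fun x => a x * b x ^ 2 := by
    have h8 := Ex_cs (fun x => Real.sqrt (a x)) fun x => Real.sqrt (a x) * b x
    have e1 : (Ex fun x => Real.sqrt (a x) * (Real.sqrt (a x) * b x)) = Ex fun x => a x * b x :=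
      Ex_congr fun x => by rw [← mul_assoc, Real.mul_self_sqrt (ha0 x)]
    have e2 : (Ex fun x => Real.sqrt (a x) ^ 2) = Ex a :=
      Ex_congr fun x => Real.sq_sqrt (ha0 x)
    have e3 : (Ex fun x => (Real.sqrt (a x) * b x) ^ 2) = Ex fun x => a x * b x ^ 2 :=
      Ex_congr fun x => by rw [mul_pow, Real.sq_sqrt (ha0 x)]
    rw [e1, e2, e3] at h8
    exact h8
  have hA0 : 0 ≤ Ex a := Ex_nonneg ha0
  have hA2 : 0 ≤ Ex fun x => a x ^ 2 := Ex_nonneg fun x => sq_nonneg _
  have hab2 : 0 ≤ Ex fun x => a x * b x ^ 2 :=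
    Ex_nonneg fun x => mul_nonneg (ha0 x) (sq_nonneg _)
  have hs : Real.sqrt (Ex fun x => ∑ j, F j x ^ 2) ^ 2 = Ex fun x => a x ^ 2 := by
    rw [Real.sq_sqrt (Ex_nonneg fun x => sum_nonneg fun _ _ => sq_nonneg _)]
    exact Ex_congr fun x => (len_sq _).symm
  set s : ℝ := Real.sqrt (Ex fun x => ∑ j, F j x ^ 2) with hs'
  have hs0 : 0 ≤ s := Real.sqrt_nonneg _
  -- `Ex (a b ^ 2) ≤ s Q`
  have h9 : (Ex fun x => a x * b x ^ 2) ≤ s * Q := by
    rw [← hs, ← mul_pow] at h6
    exact (le_abs_self _).trans (abs_le_of_sq_le_sq h6 (mul_nonneg hs0 hQ0))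
  rcases hQ0.eq_or_lt with h | h
  · rw [← h]; exact mul_nonneg hA0 hs0
  · have h10 : Q ^ 2 ≤ Ex a * (s * Q) := by
      calc Q ^ 2 ≤ (Ex fun x => a x * b x) ^ 2 := pow_le_pow_left₀ hQ0 h1 2
        _ ≤ (Ex a) * Ex fun x => a x * b x ^ 2 := h7
        _ ≤ Ex a * (s * Q) := mul_le_mul_of_nonneg_left h9 hA0
    have h11 : Q * Q ≤ (Ex a * s) * Q := by nlinarith [h10]
    exact le_of_mul_le_mul_right h11 h

/-! ### Derivatives -/

/-- The Laplacian in the direction of a coordinate of the set `A`. -/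
noncomputable def Lp (A : Finset ι) (f : (ι → Bool) → ℝ) (i : ι) (x : ι → Bool) : ℝ :=
  if i ∈ A then (f x - f (flp x i)) / 2 else 0

theorem fc_Lp (A : Finset ι) (f : (ι → Bool) → ℝ) (i : ι) (S : Finset ι) :
    fc (Lp A f i) S = if i ∈ S ∩ A then fc f S else 0 := by
  by_cases hA : i ∈ A
  · have h1 : fc (Lp A f i) S = (fc f S - Ex fun x => f (flp x i) * chi S x) * (1 / 2) := by
      unfold fc Lp
      rw [← Ex_sub, ← Ex_mul_const]
      refine Ex_congr fun x => ?_
      rw [if_pos hA]; ring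
    have h2 : (Ex fun x => f (flp x i) * chi S x) = (if i ∈ S then -1 else 1) * fc f S := by
      rw [← Ex_flp i]
      unfold fc
      rw [← Ex_const_mul]
      refine Ex_congr fun x => ?_
      rw [flp_flp, chi_flp]; ring
    rw [h1, h2]
    by_cases hS : i ∈ S
    · rw [if_pos hS, if_pos (mem_inter.2 ⟨hS, hA⟩)]; ring
    · rw [if_neg hS, if_neg fun h => hS (mem_inter.1 h).1]; ring
  · rw [if_neg fun h => hA (mem_inter.1 h).2]
    unfold fc Lp
    simp only [if_neg hA, zero_mul]
    exact Ex_const 0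

theorem sum_Lp_sq (A : Finset ι) {f : (ι → Bool) → ℝ} (hf : IsSign f) (x : ι → Bool) :
    ∑ i, Lp A f i x ^ 2 = (#(piv f x ∩ A) : ℝ) := by
  have h : ∀ i, Lp A f i x ^ 2 = if i ∈ piv f x ∩ A then 1 else 0 := by
    intro i
    unfold Lp
    by_cases hA : i ∈ A
    · rw [if_pos hA]
      by_cases hp : f (flp x i) ≠ f x
      · rw [if_pos (mem_inter.2 ⟨by simp [piv, hp], hA⟩)]
        rcases hf x with h1 | h1 <;> rcases hf (flp x i) with h2 | h2
        · exact absurd (h2.trans h1.symm) hp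
        · rw [h1, h2]; norm_num
        · rw [h1, h2]; norm_num
        · exact absurd (h2.trans h1.symm) hp
      · rw [if_neg]
        · push Not at hp; rw [hp]; norm_num
        · intro h3
          have := (mem_inter.1 h3).1
          simp [piv] at this
          exact hp this
    · rw [if_neg hA, if_neg fun h => hA (mem_inter.1 h).2]; norm_num
  simp only [h]
  rw [sum_ite_mem, univ_inter, sum_const, nsmul_eq_mul, mul_one]

theorem sum_inter (A S : Finset ι) (c : ℝ) :
    ∑ i, (if i ∈ S ∩ A then c else 0) = (#(S ∩ A) : ℝ) * c := by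
  rw [sum_ite_mem, univ_inter, sum_const, nsmul_eq_mul]

theorem nat_half_pow (m : ℕ) : (m : ℝ) * (1 / 2) ^ m ≤ 1 := by
  have h : (m : ℝ) ≤ 2 ^ m := by exact_mod_cast (Nat.lt_two_pow_self (n := m)).le
  rw [one_div, inv_pow]
  rw [mul_inv_le_iff₀ (by positivity)]
  simpa using h

theorem low_one (hB : BonamiThm) {f : (ι → Bool) → ℝ} (hf : IsSign f) (A : Finset ι) (k : ℕ) :
    (∑ S : Finset ι, if #S ≤ k then (#(S ∩ A) : ℝ) * fc f S ^ 2 else 0) ≤
      12 ^ k * ((Ex fun x => Real.sqrt #(piv f x ∩ A)) * Real.sqrt (sInf f A)) := by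
  set F : ι → (ι → Bool) → ℝ := fun i => T (1 / 2) (Lp A f i) with hF
  have hr : (1 / Real.sqrt 3) ^ 2 = (1 / 3 : ℝ) := by
    rw [div_pow, Real.sq_sqrt (by norm_num)]; norm_num
  -- the norm of order two of the image
  have h1 : (Ex fun x => ∑ i, T (1 / Real.sqrt 3) (F i) x ^ 2) =
      ∑ S : Finset ι, (#(S ∩ A) : ℝ) * ((1 / 12) ^ #S * fc f S ^ 2) := by
    rw [Ex_sum]
    have h2 : ∀ i, (Ex fun x => T (1 / Real.sqrt 3) (F i) x ^ 2) =
        ∑ S : Finset ι, if i ∈ S ∩ A then (1 / 12) ^ #S * fc f S ^ 2 else 0 := by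
      intro i
      have h3 : (Ex fun x => T (1 / Real.sqrt 3) (F i) x ^ 2) =
        Ex fun x => T (1 / Real.sqrt 3) (F i) x * T (1 / Real.sqrt 3) (F i) x :=
        Ex_congr fun x => sq _
      rw [h3, parseval]
      refine sum_congr rfl fun S _ => ?_
      rw [fc_T, hF]
      simp only
      rw [fc_T, fc_Lp]
      split_ifs with h
      · have h4 : (1 / 12 : ℝ) ^ #S = ((1 / Real.sqrt 3) ^ #S) ^ 2 * ((1 / 2) ^ #S) ^ 2 := by
          rw [← pow_mul, ← pow_mul, mul_comm (#S) 2, pow_mul, pow_mul, hr, ← mul_pow]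
          norm_num
        rw [h4]; ring
      · ring
    simp only [h2]
    rw [sum_comm]
    exact sum_congr rfl fun S _ => sum_inter A S _
  -- the norm of order two
  have h5 : (Ex fun x => ∑ i, F i x ^ 2) ≤ sInf f A := by
    rw [Ex_sum]
    have h2 : ∀ i, (Ex fun x => F i x ^ 2) =
        ∑ S : Finset ι, if i ∈ S ∩ A then (1 / 4) ^ #S * fc f S ^ 2 else 0 := by
      intro i
      have h3 : (Ex fun x => F i x ^ 2) = Ex fun x => F i x * F i x :=
        Ex_congr fun x => sq _
      rw [h3, parseval]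
      refine sum_congr rfl fun S _ => ?_
      rw [hF]
      simp only
      rw [fc_T, fc_Lp]
      split_ifs with h
      · have h4 : (1 / 4 : ℝ) ^ #S = ((1 / 2) ^ #S) ^ 2 := by
          rw [← pow_mul, mul_comm (#S) 2, pow_mul]
          norm_num
        rw [h4]; ring
      · ring
    simp only [h2]
    rw [sum_comm]
    unfold sInf
    refine sum_le_sum fun S _ => ?_
    rw [sum_inter]
    split_ifs with hd
    · have : S ∩ A = ∅ := disjoint_iff_inter_eq_empty.1 hd
      rw [this]; simp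
    · have h6 : (#(S ∩ A) : ℝ) ≤ #S := by exact_mod_cast card_le_card inter_subset_left
      have h7 := nat_half_pow #S
      have h8 : (1 / 4 : ℝ) ^ #S = (1 / 2) ^ #S * (1 / 2) ^ #S := by
        rw [← mul_pow]; norm_num
      have h9 : (0 : ℝ) ≤ (1 / 2) ^ #S := by positivity
      calc (#(S ∩ A) : ℝ) * ((1 / 4) ^ #S * fc f S ^ 2)
          ≤ #S * ((1 / 4) ^ #S * fc f S ^ 2) :=
            mul_le_mul_of_nonneg_right h6 (by positivity)
        _ = (#S * (1 / 2) ^ #S) * ((1 / 2) ^ #S * fc f S ^ 2) := by rw [h8]; ring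
        _ ≤ 1 * ((1 / 2) ^ #S * fc f S ^ 2) :=
            mul_le_mul_of_nonneg_right h7 (by positivity)
        _ = _ := one_mul _
  -- the norm of order one
  have h10 : (Ex fun x => len fun i => F i x) ≤ Ex fun x => Real.sqrt #(piv f x ∩ A) := by
    refine (Ex_len_T (by norm_num) (by norm_num) fun i => Lp A f i).trans (le_of_eq ?_)
    refine Ex_congr fun x => ?_
    unfold len
    rw [sum_Lp_sq A hf]
  have h11 := norm_T hB F
  rw [h1] at h11
  have h12 : (∑ S : Finset ι, if #S ≤ k then (#(S ∩ A) : ℝ) * fc f S ^ 2 else 0) ≤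
      12 ^ k * ∑ S : Finset ι, (#(S ∩ A) : ℝ) * ((1 / 12) ^ #S * fc f S ^ 2) := by
    rw [mul_sum]
    refine sum_le_sum fun S _ => ?_
    split_ifs with hk
    · have h13 : (1 : ℝ) ≤ 12 ^ k * (1 / 12) ^ #S := by
        rw [one_div, inv_pow, ← div_eq_mul_inv, one_le_div (by positivity)]
        exact pow_le_pow_right₀ (by norm_num) hk
      have h14 : 0 ≤ (#(S ∩ A) : ℝ) * fc f S ^ 2 := by positivity
      calc (#(S ∩ A) : ℝ) * fc f S ^ 2 = 1 * ((#(S ∩ A) : ℝ) * fc f S ^ 2) := (one_mul _).symm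
        _ ≤ (12 ^ k * (1 / 12) ^ #S) * ((#(S ∩ A) : ℝ) * fc f S ^ 2) :=
          mul_le_mul_of_nonneg_right h13 h14
        _ = _ := by ring
    · positivity
  refine h12.trans (mul_le_mul_of_nonneg_left ?_ (by positivity))
  refine h11.trans ?_
  exact mul_le_mul h10 (Real.sqrt_le_sqrt h5) (Real.sqrt_nonneg _)
    (Ex_nonneg fun x => Real.sqrt_nonneg _)

/-- Package K2-F1b. -/
theorem lowThm (hB : BonamiThm) : LowThm := by
  classical
  refine ⟨1, zero_le_one, ?_⟩
  intro ι G _ _ _ _ grp f hf k τ hτ H hH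
  have h1 : ∀ S : Finset ι, (#{i ∈ S | grp i ∈ H} : ℝ) =
      ∑ g ∈ H, (#(S ∩ ({i | grp i = g} : Finset ι)) : ℝ) := by
    intro S
    have h2 : #{i ∈ S | grp i ∈ H} = ∑ g ∈ H, #{i ∈ ({i ∈ S | grp i ∈ H} : Finset ι) | grp i = g} :=
      card_eq_sum_card_fiberwise fun i hi => by
        exact (mem_filter.1 (mem_coe.1 hi)).2
    rw [h2]
    push_cast
    refine sum_congr rfl fun g hg => ?_
    have h3 : ({i ∈ ({i ∈ S | grp i ∈ H} : Finset ι) | grp i = g} : Finset ι) =
        S ∩ ({i | grp i = g} : Finset ι) := by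
      ext i
      simp only [mem_filter, mem_inter, mem_univ, true_and]
      constructor
      · rintro ⟨⟨h4, _⟩, h5⟩; exact ⟨h4, h5⟩
      · rintro ⟨h4, h5⟩; exact ⟨⟨h4, h5 ▸ hg⟩, h5⟩
    rw [h3]
  have h4 : (∑ S : Finset ι, if #S ≤ k then (#{i ∈ S | grp i ∈ H} : ℝ) * fc f S ^ 2 else 0) =
      ∑ g ∈ H, ∑ S : Finset ι,
        if #S ≤ k then (#(S ∩ ({i | grp i = g} : Finset ι)) : ℝ) * fc f S ^ 2 else 0 := by
    rw [sum_comm]
    refine sum_congr rfl fun S _ => ?_
    split_ifs with h
    · rw [h1, sum_mul]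
    · simp
  rw [h4]
  calc _ ≤ ∑ g ∈ H, 12 ^ k * ((Ex fun x => Real.sqrt #(piv f x ∩ ({i | grp i = g} : Finset ι))) *
        Real.sqrt τ) := by
        refine sum_le_sum fun g hg => (low_one hB hf _ k).trans ?_
        refine mul_le_mul_of_nonneg_left ?_ (by positivity)
        exact mul_le_mul_of_nonneg_left (Real.sqrt_le_sqrt (hH g hg))
          (Ex_nonneg fun x => Real.sqrt_nonneg _)
    _ ≤ ∑ g, 12 ^ k * ((Ex fun x => Real.sqrt #(piv f x ∩ ({i | grp i = g} : Finset ι))) *
        Real.sqrt τ) := by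
        refine sum_le_sum_of_subset_of_nonneg (subset_univ _) fun g _ _ => ?_
        exact mul_nonneg (by positivity)
          (mul_nonneg (Ex_nonneg fun x => Real.sqrt_nonneg _) (Real.sqrt_nonneg _))
    _ = 1 * 12 ^ k * energy grp f * Real.sqrt τ := by
        unfold energy
        rw [Ex_sum, ← mul_sum, ← sum_mul]
        have h5 : ∀ (x : ι → Bool) (g : G), piv f x ∩ ({i | grp i = g} : Finset ι) =
            @Finset.filter ι (fun i => grp i = g) (fun i => Classical.propDecidable (grp i = g))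
              (piv f x) := by
          intro x g
          ext i
          simp
        simp only [h5]
        rw [one_mul, mul_assoc]

end Vale.Agent.P325.K2.H715Low
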